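import Vale.Agent.Lib.P027.Main

/-- Total degree at most three: the set of first coordinates of rational zeros is finite or has
infinitely many points in a bounded window; in particular it is not the set of integers. -/
theorem Vale.Agent.Results.P027.CubicNoIntegers.result :
    (∀ (m : ℕ) (P : MvPolynomial (Fin (m + 1)) ℚ), P.totalDegree ≤ 3 →
      {x : ℚ | ∃ y : Fin m → ℚ, MvPolynomial.eval (Fin.cons x y : Fin (m + 1) → ℚ) P = 0}.Finite ∨
      ∃ R : ℚ, ({x : ℚ | ∃ y : Fin m → ℚ,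
        MvPolynomial.eval (Fin.cons x y : Fin (m + 1) → ℚ) P = 0} ∩ {x : ℚ | |x| ≤ R}).Infinite) ∧
    (∀ (m : ℕ) (P : MvPolynomial (Fin (m + 1)) ℚ), P.totalDegree ≤ 3 →
      ¬ ∀ x : ℚ, (∃ n : ℤ, x = n) ↔
        ∃ y : Fin m → ℚ, MvPolynomial.eval (Fin.cons x y : Fin (m + 1) → ℚ) P = 0) :=
  ⟨Vale.Agent.Lib.P027.main_thm, Vale.Agent.Lib.P027.main_integers⟩
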